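import Mathlib
import Vale.Agent.Lib.P162.Defs

namespace Vale.Agent.Lib.P162.H77

open Finset BigOperators

/-- The residue class condition as a congruence of natural numbers. -/
theorem filter_eq_modEq (h : ℕ) [NeZero h] (m : ℕ) (a y : ZMod (2 * h)) :
    (range (2 ^ m)).filter (fun u : ℕ => a + (u : ZMod (2 * h)) = y) =
      (range (2 ^ m)).filter (fun u : ℕ => u ≡ (y - a).val [MOD 2 * h]) := by
  have hn : NeZero (2 * h) := ⟨by have := NeZero.ne h; omega⟩
  refine filter_congr fun u _ => ?_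
  rw [← ZMod.natCast_eq_natCast_iff, ZMod.natCast_zmod_val]
  constructor
  · intro hu
    rw [← hu]; ring
  · intro hu
    rw [hu]; ring

/-- The number of `u < 2 ^ m` in one residue class mod `2 h`. -/
theorem card_filter_eq (h : ℕ) [NeZero h] (m : ℕ) (a y : ZMod (2 * h)) :
    ((range (2 ^ m)).filter (fun u : ℕ => a + (u : ZMod (2 * h)) = y)).card =
      2 ^ m / (2 * h) + if (y - a).val % (2 * h) < 2 ^ m % (2 * h) then 1 else 0 := by
  have hpos : 0 < 2 * h := by have := NeZero.ne h; omega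
  rw [filter_eq_modEq, ← Nat.count_eq_card_filter_range, Nat.count_modEq_card _ hpos]

theorem count_le_one (h : ℕ) [NeZero h] (m : ℕ) (hm : 2 ^ m ≤ 2 * h) (a y : ZMod (2 * h)) :
    ((range (2 ^ m)).filter (fun u : ℕ => a + (u : ZMod (2 * h)) = y)).card ≤ 1 := by
  have hpos : 0 < 2 * h := by have := NeZero.ne h; omega
  rw [card_filter_eq]
  rcases hm.eq_or_lt with he | hl
  · rw [he, Nat.div_self hpos, Nat.mod_self]
    simp
  · rw [Nat.div_eq_of_lt hl]
    split_ifs <;> simp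

theorem count_close (h : ℕ) [NeZero h] (m : ℕ) (a y : ZMod (2 * h)) :
    |(((range (2 ^ m)).filter (fun u : ℕ => a + (u : ZMod (2 * h)) = y)).card : ℝ) / 2 ^ m
        - 1 / (2 * h : ℝ)| ≤ 1 / 2 ^ m := by
  have hpos : 0 < 2 * h := by have := NeZero.ne h; omega
  have hposR : (0 : ℝ) < 2 * (h : ℝ) := by exact_mod_cast hpos
  have h2m : (0 : ℝ) < 2 ^ m := by positivity
  rw [card_filter_eq]
  set q := 2 ^ m / (2 * h) with hq
  set ρ := 2 ^ m % (2 * h) with hρ
  have hdiv : 2 ^ m = (2 * h) * q + ρ := (Nat.div_add_mod (2 ^ m) (2 * h)).symm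
  have hρlt : ρ < 2 * h := Nat.mod_lt _ hpos
  have hdivR : (2 : ℝ) ^ m = (2 * (h : ℝ)) * q + ρ := by exact_mod_cast hdiv
  have hρR : (ρ : ℝ) < 2 * (h : ℝ) := by exact_mod_cast hρlt
  have hρ0 : (0 : ℝ) ≤ ρ := Nat.cast_nonneg _
  have key : ∀ δ : ℝ, (δ = 0 ∨ δ = 1) →
      |((q : ℝ) + δ) / 2 ^ m - 1 / (2 * (h : ℝ))| ≤ 1 / 2 ^ m := by
    intro δ hδ
    have e : ((q : ℝ) + δ) / 2 ^ m - 1 / (2 * (h : ℝ)) =
        (δ * (2 * (h : ℝ)) - ρ) / (2 * (h : ℝ) * 2 ^ m) := by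
      rw [div_sub_div _ _ h2m.ne' hposR.ne',
        div_eq_div_iff (mul_ne_zero h2m.ne' hposR.ne') (mul_ne_zero hposR.ne' h2m.ne')]
      linear_combination (-(2 * (h : ℝ) * 2 ^ m)) * hdivR
    rw [e, abs_div, abs_of_pos (by positivity : (0 : ℝ) < 2 * (h : ℝ) * 2 ^ m),
      div_le_div_iff₀ (by positivity) h2m]
    have habs : |δ * (2 * (h : ℝ)) - ρ| ≤ 2 * (h : ℝ) := by
      rw [abs_le]
      rcases hδ with rfl | rfl
      · constructor <;> linarith
      · constructor <;> linarith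
    calc |δ * (2 * (h : ℝ)) - ρ| * 2 ^ m ≤ 2 * (h : ℝ) * 2 ^ m :=
          mul_le_mul_of_nonneg_right habs h2m.le
      _ = 1 * (2 * (h : ℝ) * 2 ^ m) := by ring
  split_ifs with hif
  · have := key 1 (Or.inr rfl)
    push_cast
    exact this
  · have := key 0 (Or.inl rfl)
    push_cast
    simpa using this

end Vale.Agent.Lib.P162.H77
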